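import Vale.Agent.P318.H272.RMC

/-!
# Counting lemmas for the test and the hash functions  (P318, section 9)

* `card_prod_af`: for every point `x` exactly the fraction `2^(-s)` of the products of `s` affine
  functions takes the value `1` at `x`;
* `card_hash_kernel`: for `z ≠ 0` exactly the fraction `2^(-l)` of the linear maps to `l` bits
  kills `z`;
-/

open Finset

namespace Vale.Agent.P318.H269

open Vale.Agent.P318.H272

section weight

variable {Y : Type*} [AddCommGroup Y] [Module (ZMod 2) Y] [Fintype (Aff Y)]

theorem card_af_eq_one (x : Y) :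
    2 * (univ.filter fun a : Aff Y => af a x = 1).card = Fintype.card (Aff Y) := by
  classical
  have h1 : (univ.filter fun a : Aff Y => af a x = 1).card =
      (univ.filter fun a : Aff Y => ¬ af a x = 1).card := by
    refine card_bij (fun a _ => (a.1, a.2 + 1)) ?_ ?_ ?_
    · intro a ha
      simp only [mem_filter, mem_univ, true_and] at ha ⊢
      have e : af (a.1, a.2 + 1) x = af a x + 1 := by simp [af]; ring
      rw [e, ha]; decide
    · intro a _ b _ hab
      have h := Prod.ext_iff.1 hab
      exact Prod.ext h.1 (add_right_cancel h.2)
    · intro b hb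
      simp only [mem_filter, mem_univ, true_and] at hb
      refine ⟨(b.1, b.2 + 1), ?_, ?_⟩
      · simp only [mem_filter, mem_univ, true_and]
        have e : af (b.1, b.2 + 1) x = af b x + 1 := by simp [af]; ring
        rw [e]
        revert hb; generalize af b x = c; revert c; decide
      · refine Prod.ext rfl ?_
        change b.2 + 1 + 1 = b.2
        rw [add_assoc, show (1 + 1 : ZMod 2) = 0 from by decide, add_zero]
  have h2 := card_filter_add_card_filter_not (s := (univ : Finset (Aff Y))) (fun a => af a x = 1)
  rw [card_univ] at h2
  omega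

theorem card_prod_af [DecidableEq (Aff Y)] (s : ℕ) (x : Y) :
    2 ^ s * (univ.filter fun b : Fin s → Aff Y => ∏ i, af (b i) x = 1).card =
      Fintype.card (Fin s → Aff Y) := by
  classical
  have h1 : (univ.filter fun b : Fin s → Aff Y => ∏ i, af (b i) x = 1) =
      Fintype.piFinset fun _ : Fin s => univ.filter fun a : Aff Y => af a x = 1 := by
    ext b
    simp only [mem_filter, mem_univ, true_and, Fintype.mem_piFinset]
    constructor
    · intro h i
      have h0 : ∏ i, af (b i) x ≠ 0 := by rw [h]; decide
      have := (prod_ne_zero_iff.1 h0) i (mem_univ i)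
      revert this; generalize af (b i) x = c; revert c; decide
    · intro h
      exact prod_eq_one fun i _ => h i
  rw [h1, Fintype.card_piFinset, Finset.prod_const, card_univ, Fintype.card_fin,
    Fintype.card_fun, Fintype.card_fin, ← card_af_eq_one x, mul_pow]

end weight

section hash

variable {B : Type*} [AddCommGroup B] [Module (ZMod 2) B]

/-- the linear maps to `l` bits -/
abbrev Hsh (B : Type*) [AddCommGroup B] [Module (ZMod 2) B] (l : ℕ) :=
  B →ₗ[ZMod 2] (Fin l → ZMod 2)

theorem card_hash_kernel (l : ℕ) [Fintype (Hsh B l)] {z : B} (hz : z ≠ 0) :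
    2 ^ l * (univ.filter fun H : Hsh B l => H z = 0).card = Fintype.card (Hsh B l) := by
  classical
  obtain ⟨φ, hφ⟩ := Module.Projective.exists_dual_eq_one (ZMod 2) hz
  -- all fibres of evaluation at `z` have the same number of elements
  have h1 : ∀ w : Fin l → ZMod 2, (univ.filter fun H : Hsh B l => H z = w).card =
      (univ.filter fun H : Hsh B l => H z = 0).card := by
    intro w
    refine card_bij (fun H _ => H - φ.smulRight w) ?_ ?_ ?_
    · intro H hH
      simp only [mem_filter, mem_univ, true_and] at hH ⊢
      simp [hH, hφ]
    · intro H _ H' _ h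
      exact sub_left_injective h
    · intro H hH
      refine ⟨H + φ.smulRight w, ?_, by simp⟩
      simp only [mem_filter, mem_univ, true_and] at hH ⊢
      simp [hH, hφ]
  have h2 : Fintype.card (Hsh B l) = ∑ w : Fin l → ZMod 2,
      (univ.filter fun H : Hsh B l => H z = w).card := by
    rw [← card_univ]
    exact card_eq_sum_card_fiberwise fun H _ => mem_coe.2 (mem_univ _)
  rw [h2, sum_congr rfl fun w _ => h1 w, sum_const, card_univ, Fintype.card_fun, Fintype.card_fin,
    ZMod.card, smul_eq_mul]

variable {X : Type*} [AddCommGroup X] [Module (ZMod 2) X]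

end hash

end Vale.Agent.P318.H269
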