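import Vale.Agent.P318.H272.Hash

/-!
# Dimension of Reed–Muller spaces, view spaces and the code  (P318, section 9)

`RM Y s` is the `s`-th power, in the algebra `Y → ZMod 2`, of the space of affine functions.
-/

open Finset Pointwise

namespace Vale.Agent.P318.H269

open Vale.Agent.P318.H272

section basic

variable (Y : Type*) [AddCommGroup Y] [Module (ZMod 2) Y]

/-- `af` as a linear map -/
def afL : Aff Y →ₗ[ZMod 2] (Y → ZMod 2) where
  toFun a := af a
  map_add' a b := by funext x; simp [af]; ring
  map_smul' c a := by funext x; simp [af]; ring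

/-- the space of affine functions -/
def affSub : Submodule (ZMod 2) (Y → ZMod 2) := LinearMap.range (afL Y)

variable {Y}

theorem RM_eq_pow (s : ℕ) : RM Y s = affSub Y ^ s := by
  apply le_antisymm
  · unfold RM
    rw [Submodule.span_le]
    rintro _ ⟨a, rfl⟩
    have h : ∀ (s : ℕ) (a : Fin s → Aff Y), (∏ i, af (a i)) ∈ affSub Y ^ s := by
      intro s
      induction s with
      | zero => intro a; simp
      | succ s ih =>
        intro a
        rw [Fin.prod_univ_succ, pow_succ']
        exact Submodule.mul_mem_mul ⟨a 0, rfl⟩ (ih _)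
    have h2 := h s a
    have h3 : (∏ i, af (a i)) = fun x => ∏ i, af (a i) x := by funext x; simp
    rw [h3] at h2
    exact h2
  · unfold affSub
    rw [← Submodule.span_eq (LinearMap.range (afL Y)), Submodule.span_pow, Submodule.span_le]
    intro v hv
    rw [Set.mem_pow] at hv
    obtain ⟨f, rfl⟩ := hv
    choose a ha using fun i : Fin s => (f i).2
    apply Submodule.subset_span
    refine ⟨a, ?_⟩
    rw [List.prod_ofFn]
    funext x
    rw [Finset.prod_apply]
    refine Finset.prod_congr rfl fun i _ => ?_
    rw [← ha i]; rfl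

end basic

section pull

/-- precomposition as an algebra homomorphism -/
def pull {X Y : Type*} (f : X → Y) : (Y → ZMod 2) →ₐ[ZMod 2] (X → ZMod 2) where
  toFun w := w ∘ f
  map_one' := rfl
  map_mul' _ _ := rfl
  map_zero' := rfl
  map_add' _ _ := rfl
  commutes' _ := rfl

variable {X Y : Type*} [AddCommGroup Y] [Module (ZMod 2) Y]

theorem map_pull_RM (f : X → Y) (s : ℕ) :
    (RM Y s).map (pull f).toLinearMap = ((affSub Y).map (pull f).toLinearMap) ^ s := by
  rw [RM_eq_pow]
  exact Submodule.map_pow _ (pull f) _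

end pull

section dim

/-- finrank of a power of a submodule of an algebra -/
theorem finrank_pow_le {K A : Type*} [Field K] [CommRing A] [Algebra K A] [Module.Finite K A]
    (P : Submodule K A) (s : ℕ) :
    Module.finrank K ↥(P ^ s) ≤ Module.finrank K P ^ s := by
  classical
  let b := Module.finBasis K P
  let B : Finset A := Finset.univ.image fun i => (b i : A)
  have hB : Submodule.span K (B : Set A) = P := by
    have h1 : (B : Set A) = P.subtype '' (Set.range b) := by
      ext x; simp [B]
    rw [h1, Submodule.span_image, b.span_eq, Submodule.map_top, Submodule.range_subtype]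
  have hcard : B.card ≤ Module.finrank K P := by
    calc B.card ≤ (Finset.univ : Finset (Fin (Module.finrank K P))).card := Finset.card_image_le
      _ = _ := by simp
  calc Module.finrank K ↥(P ^ s) = Module.finrank K ↥(Submodule.span K ((B ^ s : Finset A) : Set A)) := by
        rw [Finset.coe_pow, ← Submodule.span_pow, hB]
    _ ≤ (B ^ s).card := finrank_span_finset_le_card _
    _ ≤ B.card ^ s := Finset.card_pow_le
    _ ≤ _ := Nat.pow_le_pow_left hcard s

variable {X Y : Type*} [AddCommGroup X] [Module (ZMod 2) X] [AddCommGroup Y] [Module (ZMod 2) Y]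

theorem finrank_map_aff_le [Finite X] [Finite Y] (L : X →ₗ[ZMod 2] Y) :
    Module.finrank (ZMod 2) ↥((affSub Y).map (pull fun x => L x).toLinearMap)
      ≤ Module.finrank (ZMod 2) (LinearMap.range L) + 1 := by
  classical
  -- coercion of functionals to functions
  let co : Module.Dual (ZMod 2) X →ₗ[ZMod 2] (X → ZMod 2) :=
    { toFun := fun φ => φ, map_add' := fun _ _ => rfl, map_smul' := fun _ _ => rfl }
  have hle : (affSub Y).map (pull fun x => L x).toLinearMap
      ≤ (LinearMap.range L.dualMap).map co ⊔ Submodule.span (ZMod 2) {(1 : X → ZMod 2)} := by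
    rintro _ ⟨_, ⟨a, rfl⟩, rfl⟩
    have h : (pull fun x => L x).toLinearMap (afL Y a) = co (L.dualMap a.1) + a.2 • (1 : X → ZMod 2) := by
      funext x
      change a.1 (L x) + a.2 = a.1 (L x) + a.2 • (1 : ZMod 2)
      simp
    rw [h]
    refine Submodule.add_mem_sup ⟨_, ⟨a.1, rfl⟩, rfl⟩ ?_
    exact Submodule.smul_mem _ _ (Submodule.subset_span rfl)
  calc _ ≤ Module.finrank (ZMod 2) ↥((LinearMap.range L.dualMap).map co ⊔
            Submodule.span (ZMod 2) {(1 : X → ZMod 2)}) := Submodule.finrank_mono hle
    _ ≤ Module.finrank (ZMod 2) ↥((LinearMap.range L.dualMap).map co) +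
          Module.finrank (ZMod 2) ↥(Submodule.span (ZMod 2) {(1 : X → ZMod 2)}) :=
        Submodule.finrank_add_le_finrank_add_finrank _ _
    _ ≤ Module.finrank (ZMod 2) (LinearMap.range L.dualMap) + 1 := by
        refine add_le_add (Submodule.finrank_map_le _ _) ?_
        have := finrank_span_finset_le_card (R := ZMod 2) ({(1 : X → ZMod 2)} : Finset (X → ZMod 2))
        rw [Finset.coe_singleton, Finset.card_singleton] at this
        exact this
    _ = _ := by rw [LinearMap.finrank_range_dualMap_eq_finrank_range]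

/-- dimension of the space of functions of degree `≤ s` of a view of small rank -/
theorem finrank_viewSp_le [Finite X] [Finite Y] (L : X →ₗ[ZMod 2] Y) (s : ℕ) :
    Module.finrank (ZMod 2) ↥(viewSp L s)
      ≤ (Module.finrank (ZMod 2) (LinearMap.range L) + 1) ^ s := by
  have h : viewSp L s = (RM Y s).map (pull fun x => L x).toLinearMap := rfl
  rw [h, map_pull_RM]
  exact (finrank_pow_le _ s).trans (Nat.pow_le_pow_left (finrank_map_aff_le L) s)

theorem finrank_RM_le [Finite Y] (s : ℕ) :
    Module.finrank (ZMod 2) ↥(RM Y s) ≤ (Module.finrank (ZMod 2) Y + 1) ^ s := by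
  have h := finrank_viewSp_le (LinearMap.id : Y →ₗ[ZMod 2] Y) s
  have h1 : viewSp (LinearMap.id : Y →ₗ[ZMod 2] Y) s = RM Y s := by
    ext v
    constructor
    · rintro ⟨w, hw, rfl⟩; exact hw
    · intro hv; exact ⟨v, hv, rfl⟩
  rw [h1, LinearMap.range_id, finrank_top] at h
  exact h

/-- sums of finitely many small spaces -/
theorem finrank_iSup_le {K A ι : Type*} [Field K] [AddCommGroup A] [Module K A] [Module.Finite K A]
    [Fintype ι] (P : ι → Submodule K A) (B : ℕ) (hB : ∀ i, Module.finrank K (P i) ≤ B) :
    Module.finrank K ↥(⨆ i, P i) ≤ Fintype.card ι * B := by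
  classical
  have h : ∀ S : Finset ι, Module.finrank K ↥(⨆ i ∈ S, P i) ≤ S.card * B := by
    intro S
    induction S using Finset.induction_on with
    | empty => simp
    | insert a S ha ih =>
      rw [Finset.iSup_insert, Finset.card_insert_of_notMem ha]
      calc _ ≤ Module.finrank K ↥(P a) + Module.finrank K ↥(⨆ i ∈ S, P i) :=
            Submodule.finrank_add_le_finrank_add_finrank _ _
        _ ≤ B + S.card * B := add_le_add (hB a) ih
        _ = _ := by ring
  have := h Finset.univ
  rw [Finset.card_univ] at this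
  have h2 : (⨆ i ∈ (Finset.univ : Finset ι), P i) = ⨆ i, P i := by simp
  rwa [h2] at this

/-- dimension of the code of a family of views of rank at most `D` -/
theorem finrank_codeSp_le [Finite X] [Finite Y] {ι : Type*} [Fintype ι] (L : ι → X →ₗ[ZMod 2] Y)
    (s D : ℕ) (hD : ∀ i, Module.finrank (ZMod 2) (LinearMap.range (L i)) ≤ D) :
    Module.finrank (ZMod 2) ↥(codeSp L s) ≤ Fintype.card ι * (D + 1) ^ s := by
  unfold codeSp
  exact finrank_iSup_le _ _ fun i =>
    (finrank_viewSp_le (L i) s).trans (Nat.pow_le_pow_left (Nat.succ_le_succ (hD i)) s)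

/-- rank of a pair view -/
theorem finrank_range_prod_le {A B : Type*} [AddCommGroup A] [Module (ZMod 2) A] [AddCommGroup B]
    [Module (ZMod 2) B] [Finite A] [Finite B] (L : X →ₗ[ZMod 2] A) (M : X →ₗ[ZMod 2] B) :
    Module.finrank (ZMod 2) (LinearMap.range (L.prod M)) ≤
      Module.finrank (ZMod 2) (LinearMap.range L) + Module.finrank (ZMod 2) (LinearMap.range M) := by
  have h : LinearMap.range (L.prod M) ≤ (LinearMap.range L).map (LinearMap.inl (ZMod 2) A B) ⊔
      (LinearMap.range M).map (LinearMap.inr (ZMod 2) A B) := by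
    rintro _ ⟨x, rfl⟩
    have e : (L.prod M) x = LinearMap.inl (ZMod 2) A B (L x) + LinearMap.inr (ZMod 2) A B (M x) := by
      simp
    rw [e]
    exact Submodule.add_mem_sup ⟨_, ⟨x, rfl⟩, rfl⟩ ⟨_, ⟨x, rfl⟩, rfl⟩
  calc _ ≤ _ := Submodule.finrank_mono h
    _ ≤ _ := Submodule.finrank_add_le_finrank_add_finrank _ _
    _ ≤ _ := add_le_add (Submodule.finrank_map_le _ _) (Submodule.finrank_map_le _ _)

/-- number of elements of the code -/
theorem card_codeSp [Finite X] {ι : Type*} (L : ι → X →ₗ[ZMod 2] Y) (s : ℕ) :
    Nat.card ↥(codeSp L s) = 2 ^ Module.finrank (ZMod 2) ↥(codeSp L s) := by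
  have h := Module.natCard_eq_pow_finrank (K := ZMod 2) (V := ↥(codeSp L s))
  rw [h]; simp

end dim

end Vale.Agent.P318.H269
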