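import Vale.Agent.P318.H272.Hash
import Vale.Agent.P318.H770.Meas

/-!
# Independence of the code  (P318, section 9)

* `md`: a nonzero mod-2 measure orthogonal to `RM Y s` has at least `2^(s+1)` points;
* `exists_view_test`: if every small nonzero measure has a nonzero push-forward to some view then
  it is not orthogonal to the code.
-/

open Finset

namespace Vale.Agent.P318.H269

open Vale.Agent.P318 Vale.Agent.P318.H272 Vale.Agent.P318.H770

section md

variable {Y : Type*} [AddCommGroup Y] [Module (ZMod 2) Y]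

/-- separation of two points by an affine function -/
theorem exists_af_sep {x x' : Y} (h : x ≠ x') : ∃ a : Aff Y, af a x = 1 ∧ af a x' = 0 := by
  have h1 : x - x' ≠ 0 := sub_ne_zero.2 h
  obtain ⟨φ, hφ⟩ := Module.Projective.exists_dual_eq_one (ZMod 2) h1
  refine ⟨(φ, φ x'), ?_, ?_⟩
  · have h2 : φ x - φ x' = 1 := by rw [← map_sub]; exact hφ
    have h3 : ∀ a b : ZMod 2, a - b = 1 → a + b = 1 := by decide
    exact h3 _ _ h2
  · exact CharTwo.add_self_eq_zero _

variable [Fintype Y]

omit [AddCommGroup Y] [Module (ZMod 2) Y] in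
/-- a nonzero measure of even mass has at least two points -/
theorem two_le_sz {U : Y → ZMod 2} (hU : U ≠ 0) (h : pr U (fun _ => 1) = 0) : 2 ≤ sz U := by
  classical
  have hpos : 0 < sz U := Nat.pos_of_ne_zero fun h0 => hU (sz_eq_zero.1 h0)
  by_contra hlt
  have h2 : sz U = 1 := by omega
  obtain ⟨x, hx⟩ := card_eq_one.1 h2
  have h3 : pr U (fun _ => 1) = U x := by
    unfold pr
    rw [sum_eq_single x]
    · simp
    · intro b _ hb
      by_contra h0
      have : b ∈ sup U := by
        rw [H770.mem_sup]; intro hb0; exact h0 (by rw [hb0, zero_mul])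
      rw [hx] at this
      exact hb (mem_singleton.1 this)
    · intro h; exact absurd (mem_univ x) h
  have h4 : x ∈ sup U := by rw [hx]; exact mem_singleton_self x
  rw [H770.mem_sup] at h4
  exact h4 (h3.symm.trans h)

/-- the minimum distance of the dual: (1.1) -/
theorem md (s : ℕ) : ∀ U : Y → ZMod 2, U ≠ 0 → (∀ w ∈ RM Y s, pr U w = 0) → 2 ^ (s + 1) ≤ sz U := by
  classical
  induction s with
  | zero =>
    intro U hU h
    exact two_le_sz hU (h _ (one_mem 0))
  | succ s ih =>
    intro U hU h
    -- two points in the support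
    have h0 : 2 ≤ sz U := two_le_sz hU (h _ (one_mem _))
    obtain ⟨x, hx, x', hx', hne⟩ := one_lt_card.1 (show 1 < (H770.sup U).card from h0)
    rw [H770.mem_sup] at hx hx'
    obtain ⟨a, ha, ha'⟩ := exists_af_sep hne
    -- the two halves
    have key : ∀ b : Aff Y, ∀ w ∈ RM Y s, pr (fun y => U y * af b y) w = 0 := by
      intro b w hw
      have h1 := h (fun y => af b y * w y) (by
        have := mul_mem (af_mem b) hw
        rwa [add_comm 1 s] at this)
      rw [← h1]
      unfold pr
      exact sum_congr rfl fun y _ => by ring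
    have e1 : ∀ y, af (a.1, a.2 + 1) y = af a y + 1 := fun y => by simp [af]; ring
    have h1 := ih (fun y => U y * af a y) (fun hz => by
      have := congrFun hz x
      simp only [ha, mul_one, Pi.zero_apply] at this
      exact hx this) (key a)
    have h2 := ih (fun y => U y * af (a.1, a.2 + 1) y) (fun hz => by
      have := congrFun hz x'
      simp only [e1, ha', zero_add, mul_one, Pi.zero_apply] at this
      exact hx' this) (key _)
    have h3 : sz (fun y => U y * af a y) + sz (fun y => U y * af (a.1, a.2 + 1) y) ≤ sz U := by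
      unfold sz
      rw [← card_union_of_disjoint]
      · refine card_le_card fun y hy => ?_
        rw [mem_union, H770.mem_sup, H770.mem_sup] at hy
        rw [H770.mem_sup]
        rintro h0
        simp [h0] at hy
      · rw [Finset.disjoint_left]
        intro y hy hy'
        rw [H770.mem_sup] at hy hy'
        rw [e1] at hy'
        have h4 : ∀ u c : ZMod 2, u * c ≠ 0 → u * (c + 1) ≠ 0 → False := by decide
        exact h4 _ _ hy hy'
    calc 2 ^ (s + 1 + 1) = 2 ^ (s + 1) + 2 ^ (s + 1) := by ring
      _ ≤ _ := add_le_add h1 h2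
      _ ≤ _ := h3

end md

section kwise

variable {X : Type*} [AddCommGroup X] [Module (ZMod 2) X] [Fintype X]
variable {A : Type*} [AddCommGroup A] [Module (ZMod 2) A] [Fintype A] [DecidableEq A]

/-- A measure whose push-forward to some view is nonzero and has fewer than `2^(s+1)` points is
not orthogonal to the code of degree `s`. -/
theorem exists_view_test {ι : Type*} (L : ι → X →ₗ[ZMod 2] A) (s : ℕ) (μ : X → ZMod 2) (i : ι)
    (hi : push (L i) μ ≠ 0) (hs : sz μ < 2 ^ (s + 1)) : ∃ v ∈ codeSp L s, pr μ v ≠ 0 := by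
  by_contra hcon
  push Not at hcon
  have h1 : ∀ w ∈ RM A s, pr (push (L i) μ) w = 0 := by
    intro w hw
    rw [pr_push]
    exact hcon _ (viewSp_le_codeSp L s i ⟨w, hw, rfl⟩)
  have h2 := md s _ hi h1
  have h3 := sz_push_le (L i) μ
  omega

omit [AddCommGroup X] [Module (ZMod 2) X] in
/-- average losslessness of the views (with loss less than one half) gives a nonzero push-forward -/
theorem exists_push_ne_zero {B : Type*} [Fintype B] [DecidableEq B] [DecidableEq X]
    {ι : Type*} (S : Finset ι) (f : ι → X → B)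
    (W ℓ : ℕ) (hℓ : 2 * ℓ < S.card)
    (hless : ∀ U : Finset X, U.card ≤ W →
      S.card * U.card ≤ ∑ i ∈ S, (U.image (f i)).card + ℓ * U.card)
    (μ : X → ZMod 2) (hμ : μ ≠ 0) (hW : sz μ ≤ W) : ∃ i ∈ S, push (f i) μ ≠ 0 := by
  by_contra hcon
  push Not at hcon
  have h1 := hless (sup μ) hW
  have h2 : ∀ i ∈ S, 2 * ((sup μ).image (f i)).card ≤ (sup μ).card := by
    intro i hi
    have h3 := two_mul_card_image_le (f i) (sup μ)
    have h4 := card_iso_le_sz_push (f i) μ
    rw [hcon i hi, sz_zero] at h4
    omega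
  have h5 : 2 * ∑ i ∈ S, ((sup μ).image (f i)).card ≤ S.card * (sup μ).card := by
    rw [mul_sum, ← smul_eq_mul (a := S.card), ← sum_const]
    exact sum_le_sum h2
  have hpos : 0 < (sup μ).card := Nat.pos_of_ne_zero fun h0 => hμ (sz_eq_zero.1 h0)
  have h6 : S.card * (sup μ).card ≤ 2 * ℓ * (sup μ).card := by nlinarith
  have h7 : 2 * ℓ * (sup μ).card < S.card * (sup μ).card := Nat.mul_lt_mul_of_pos_right hℓ hpos
  omega

/-- `k`-wise independence of the code (form used in the analysis) -/
theorem kwise_codeSp [DecidableEq X] {ι : Type*} (S : Finset ι) (L : ι → X →ₗ[ZMod 2] A) (s : ℕ)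
    (W ℓ : ℕ) (hℓ : 2 * ℓ < S.card)
    (hless : ∀ U : Finset X, U.card ≤ W →
      S.card * U.card ≤ ∑ i ∈ S, (U.image (L i)).card + ℓ * U.card)
    (k : ℕ) (hkW : k ≤ W) (hks : k < 2 ^ (s + 1)) (U : Finset X) (hU : U.Nonempty)
    (hUk : U.card ≤ k) : ∃ v ∈ codeSp L s, ∑ x ∈ U, v x ≠ 0 := by
  classical
  set μ : X → ZMod 2 := fun x => if x ∈ U then 1 else 0 with hμ
  have hsup : sup μ = U := by
    ext x; rw [H770.mem_sup, hμ]; by_cases hx : x ∈ U <;> simp [hx]
  have hsz : sz μ = U.card := by unfold sz; rw [hsup]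
  have hne : μ ≠ 0 := by
    intro h0
    have : sz μ = 0 := sz_eq_zero.2 h0
    rw [hsz] at this
    exact hU.ne_empty (card_eq_zero.1 this)
  obtain ⟨i, -, hi⟩ := exists_push_ne_zero S (fun i => (L i : X → A)) W ℓ hℓ hless μ hne
    (by rw [hsz]; omega)
  obtain ⟨v, hv, hpr⟩ := exists_view_test L s μ i hi (by rw [hsz]; omega)
  refine ⟨v, hv, ?_⟩
  have : pr μ v = ∑ x ∈ U, v x := by
    unfold pr
    rw [← sum_filter_add_sum_filter_not univ (fun x => x ∈ U)]
    rw [sum_congr rfl (g := fun x => v x), sum_eq_zero (s := univ.filter fun x => x ∉ U), add_zero]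
    · congr 1; ext x; simp
    · intro x hx; simp [hμ, (mem_filter.1 hx).2]
    · intro x hx; simp [hμ, (mem_filter.1 hx).2]
  rwa [← this]

end kwise

end Vale.Agent.P318.H269
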