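import Vale.Agent.P318.H937.Spec
import Vale.Agent.P318.H269.Dim
import Vale.Agent.P318.H269.Kwise
import Vale.Agent.P318.H269.Coll

/-!
# P318: the elementary properties of the code  (`SpecCODEPROPS`)
-/

open Finset

namespace Vale.Agent.P318.H269

open Vale.Agent.P318 Vale.Agent.P318.H937

section bridge

variable {Y : Type} [AddCommGroup Y] [Module (ZMod 2) Y]

theorem RM_eq (s : ℕ) : H937.RM Y s = H272.RM Y s := rfl

theorem pair_eq {X : Type} [Fintype X] (μ v : X → ZMod 2) : pair μ v = H770.pr μ v := rfl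

theorem push_eq {X Y : Type} [Fintype X] [DecidableEq Y] (f : X → Y) (μ : X → ZMod 2) :
    H937.push f μ = H770.push f μ := rfl

theorem sz_eq {X : Type} [Fintype X] (μ : X → ZMod 2) : H937.sz μ = H770.sz μ := rfl

end bridge

theorem spec_md : SpecMD := by
  intro Y _ _ _ s U hU h
  have h0 : ∀ w ∈ H272.RM Y s, H770.pr U w = 0 := by
    intro w hw
    have h1 := h w hw
    have h2 : pair (0 : Y → ZMod 2) w = 0 := by simp [pair]
    rw [h2] at h1
    exact h1
  exact md s U hU h0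

section code

variable {X : Type} [AddCommGroup X] [Module (ZMod 2) X] {M Bn Dn : ℕ}
  (N : NodeSys X M (Fin Bn × Fin Dn)) (𝒢 : Finset (Fin M → Fin Bn))

/-- the type of views -/
abbrev ViewT : Type := {T : Finset (Fin M) × (Fin M → Fin Bn × Fin Dn) // IsView N 𝒢 T}

/-- the pair view as a linear map -/
def pviewL (T : PairT N 𝒢) : X →ₗ[ZMod 2] X × X :=
  (N.view T.1.1.1 T.1.1.2).prod (N.view T.2.1.1 T.2.1.2)

theorem pviewL_apply (T : PairT N 𝒢) : (pviewL N 𝒢 T : X → X × X) = pview N 𝒢 T := rfl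

theorem codeV_eq (s : ℕ) : codeV N 𝒢 s = H272.codeSp (pviewL N 𝒢) s := rfl

theorem codeV1_eq (s : ℕ) :
    codeV1 N 𝒢 s = H272.codeSp (fun T : ViewT N 𝒢 => N.view T.1.1 T.1.2) s := rfl

instance : Finite (PairT N 𝒢) := by
  unfold PairT; infer_instance

theorem isView_empty {g : Fin M → Fin Bn} (hg : g ∈ 𝒢) (d : Fin M → Fin Dn) :
    IsView N 𝒢 (∅, fun v => (g v, d v)) := by
  refine ⟨?_, ?_, ?_⟩
  · intro v hv; exact absurd hv (Finset.notMem_empty v)
  · simp [NodeSys.minl]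
  · exact hg

theorem nonempty_view (h𝒢 : 𝒢.Nonempty) (hD : 0 < Dn) : Nonempty (ViewT N 𝒢) := by
  obtain ⟨g, hg⟩ := h𝒢
  exact ⟨⟨_, isView_empty N 𝒢 hg fun _ => ⟨0, hD⟩⟩⟩

theorem nonempty_pair (h𝒢 : 𝒢.Nonempty) (hD : 0 < Dn) : Nonempty (PairT N 𝒢) := by
  obtain ⟨T⟩ := nonempty_view N 𝒢 h𝒢 hD
  exact ⟨(T, T)⟩

end code

theorem spec_codeprops (hlow : SpecLOW) : SpecCODEPROPS := by
  intro X _ _ _ _ M n m' dT Bn Dn s s1 κ k N hN hκ h300 hnD 𝒢 h𝒢 hs1 hkm hks
  classical
  have hD : 0 < Dn := by omega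
  have : Nonempty (ViewT N 𝒢) := nonempty_view N 𝒢 h𝒢 hD
  have : Nonempty (PairT N 𝒢) := nonempty_pair N 𝒢 h𝒢 hD
  have : Fintype (PairT N 𝒢) := Fintype.ofFinite _
  refine ⟨?_, ?_, ?_, ?_, ?_, ?_, ?_, ?_⟩
  · intro v hv x
    rw [codeV_eq] at hv ⊢
    exact H272.shift_mem_codeSp hv x
  · rw [codeV_eq]
    exact H272.one_mem_codeSp _ _
  · intro γ
    rw [codeV_eq]
    refine H272.viewSp_le_codeSp (pviewL N 𝒢) s γ.1 ⟨prodAff γ.2, H272.prod_mem γ.2, rfl⟩
  · -- density
    intro x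
    have hfin : Finite (Module.Dual (ZMod 2) (X × X)) := Module.finite_of_finite (ZMod 2)
    have hfa : Fintype (AffT (X × X)) := Fintype.ofFinite _
    have h1 : ∀ T : PairT N 𝒢, 2 ^ s * Nat.card {b : Fin s → AffT (X × X) //
        prodAff b (pview N 𝒢 T x) = 1} = Nat.card (Fin s → AffT (X × X)) := by
      intro T
      rw [Nat.card_eq_fintype_card, Nat.card_eq_fintype_card, Fintype.card_subtype]
      have := card_prod_af s (pview N 𝒢 T x)
      convert this using 2
      congr 1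
    have h2 : Nat.card {γ : TestT N 𝒢 s // testF N 𝒢 s γ x = 1} =
        ∑ T : PairT N 𝒢, Nat.card {b : Fin s → AffT (X × X) // prodAff b (pview N 𝒢 T x) = 1} := by
      rw [← Nat.card_sigma]
      exact Nat.card_congr (Equiv.subtypeProdEquivSigmaSubtype
        (fun (T : PairT N 𝒢) (b : Fin s → AffT (X × X)) => prodAff b (pview N 𝒢 T x) = 1))
    have h3 : Nat.card (TestT N 𝒢 s) = Nat.card (PairT N 𝒢) * Nat.card (Fin s → AffT (X × X)) :=
      Nat.card_prod _ _
    have h4 : 2 ^ s * Nat.card {γ : TestT N 𝒢 s // testF N 𝒢 s γ x = 1} =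
        Nat.card (TestT N 𝒢 s) := by
      rw [h2, h3, mul_sum, sum_congr rfl fun T _ => h1 T, sum_const, card_univ,
        Nat.card_eq_fintype_card (α := PairT N 𝒢), smul_eq_mul]
    have h5 : (2 : ℝ) ^ s * (Nat.card {γ : TestT N 𝒢 s // testF N 𝒢 s γ x = 1} : ℝ) =
        Nat.card (TestT N 𝒢 s) := by exact_mod_cast h4
    rw [← h5, ← mul_assoc, ← mul_pow]
    norm_num
  · rw [codeV_eq, codeV1_eq]
    refine le_trans (H272.codeSp_le_pair (pviewL N 𝒢) ?_) (H272.codeSp_mono _ (by omega))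
    intro T
    exact ⟨(T, T), N.view T.1.1 T.1.2, rfl⟩
  · -- independence
    intro U hU hUk
    obtain ⟨g, hg⟩ := h𝒢
    set S : Fin M → Finset (Fin Bn × Fin Dn) := fun v => {g v} ×ˢ univ with hS
    have hScard : ∀ v, (S v).card = Dn := fun v => by simp [hS]
    have hlo := hlow X M n m' dT Dn (Fin Bn × Fin Dn) N hN S hScard hD ∅ U (by omega)
    have hsz : 0 < H937.sz U := Nat.pos_of_ne_zero fun h0 => hU (H770.sz_eq_zero.1 h0)
    have hDr : (0 : ℝ) < Dn := by exact_mod_cast hD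
    have hpos : (0 : ℝ) < (1 - 2 * M * ((2 * m' + 1) * (n * m')) / Dn) * (Dn : ℝ) ^ M *
        H937.sz U := by
      have h1 : 2 * M * ((2 * m' + 1) * (n * m')) < Dn := by
        refine lt_of_le_of_lt ?_ h300
        refine Nat.mul_le_mul_right _ ?_
        nlinarith
      have h2 : (2 * M * ((2 * m' + 1) * (n * m')) / Dn : ℝ) < 1 := by
        rw [div_lt_one hDr]; exact_mod_cast h1
      have h3 : (0 : ℝ) < H937.sz U := by exact_mod_cast hsz
      have h4 : (0 : ℝ) < 1 - 2 * M * ((2 * m' + 1) * (n * m')) / Dn := by linarith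
      positivity
    have hex : ∃ y ∈ Fintype.piFinset S, H937.sz (H937.push (N.view ∅ y) U) ≠ 0 := by
      by_contra hcon
      push Not at hcon
      have : ∑ y ∈ Fintype.piFinset S, (H937.sz (H937.push (N.view ∅ y) U) : ℝ) = 0 :=
        sum_eq_zero fun y hy => by rw [hcon y hy]; simp
      rw [this] at hlo
      linarith
    obtain ⟨y, hy, hne⟩ := hex
    have hview : IsView N 𝒢 (∅, y) := by
      refine ⟨?_, ?_, ?_⟩
      · intro v hv; exact absurd hv (Finset.notMem_empty v)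
      · simp [NodeSys.minl]
      · have : (fun v => (y v).1) = g := by
          funext v
          have := Fintype.mem_piFinset.1 hy v
          simp only [hS, mem_product, mem_singleton, mem_univ, and_true] at this
          exact this
        rw [this]; exact hg
    obtain ⟨v, hv, hpr⟩ := exists_view_test (fun T : ViewT N 𝒢 => N.view T.1.1 T.1.2) s1 U
      ⟨(∅, y), hview⟩ (fun h0 => hne (H770.sz_eq_zero.2 h0))
      (by
        have h1 : H770.sz U ≤ 2 ^ s1 := hUk.trans hks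
        have h2 : 2 ^ s1 < 2 ^ (s1 + 1) := Nat.pow_lt_pow_right (by norm_num) (Nat.lt_succ_self _)
        omega)
    refine ⟨v, hv, ?_⟩
    rcases H770.zmod2_cases (pair U v) with h0 | h0
    · exact absurd h0 hpr
    · exact h0
  · intro v hv h0
    rw [codeV_eq] at hv
    have := H272.codeSp_min_dist (pviewL N 𝒢) s hv h0
    rwa [hκ] at this
  · rw [codeV_eq, Nat.card_eq_fintype_card]
    refine finrank_codeSp_le (pviewL N 𝒢) s (2 * dT) ?_
    intro T
    have h1 := hN.dim T.1.1.1 T.1.2.1 T.1.2.2.1 T.1.1.2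
    have h2 := hN.dim T.2.1.1 T.2.2.1 T.2.2.2.1 T.2.1.2
    have h3 := finrank_range_prod_le (N.view T.1.1.1 T.1.1.2) (N.view T.2.1.1 T.2.1.2)
    unfold pviewL
    omega

end Vale.Agent.P318.H269
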