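import Vale.Agent.P318.H937.Spec4
import Vale.Agent.P318.H682.GoodOf

/-!
# P318: `SpecCORE` (Theorem 9'): the code from the code theorem
-/

open Finset

namespace Vale.Agent.P318.H269

open Vale.Agent.P318 Vale.Agent.P318.H937

/-! ### hash by polynomial evaluation -/

section hash

variable {K : Type} [Field K] [Algebra (ZMod 2) K]

/-- evaluation of the polynomial with coefficients `x` at `θ` -/
noncomputable def evL (κ : ℕ) (θ : K) : Vc κ →ₗ[ZMod 2] K :=
  Fintype.linearCombination (ZMod 2) (fun j : Fin κ => θ ^ (j : ℕ))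

theorem evL_apply (κ : ℕ) (θ : K) (x : Vc κ) : evL κ θ x = ∑ j, x j • θ ^ (j : ℕ) := by
  simp [evL, Fintype.linearCombination_apply]

theorem card_evL_le (κ : ℕ) [Finite K] (x : Vc κ) (hx : x ≠ 0) :
    Nat.card {θ : K // evL κ θ x = 0} ≤ κ := by
  classical
  let _ : Fintype K := Fintype.ofFinite K
  let p : Polynomial K := ∑ j : Fin κ, Polynomial.monomial (j : ℕ) (algebraMap (ZMod 2) K (x j))
  have hp : p ≠ 0 := by
    intro h0
    apply hx
    funext j
    have h1 : p.coeff (j : ℕ) = algebraMap (ZMod 2) K (x j) := by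
      simp only [p, Polynomial.finsetSum_coeff, Polynomial.coeff_monomial]
      rw [Finset.sum_eq_single j]
      · simp
      · intro b _ hb
        rw [if_neg]
        exact fun h => hb (Fin.ext h)
      · simp
    rw [h0, Polynomial.coeff_zero] at h1
    have h2 : Function.Injective (algebraMap (ZMod 2) K) := (algebraMap (ZMod 2) K).injective
    exact h2 (by rw [← h1, Pi.zero_apply, map_zero])
  have hev : ∀ θ : K, p.eval θ = evL κ θ x := by
    intro θ
    simp only [p, Polynomial.eval_finsetSum, Polynomial.eval_monomial, evL_apply,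
      Algebra.smul_def]
  have hdeg : p.natDegree ≤ κ := by
    refine Polynomial.natDegree_sum_le_of_forall_le _ _ fun j _ => ?_
    exact (Polynomial.natDegree_monomial_le _).trans j.2.le
  rw [Nat.card_eq_fintype_card, Fintype.card_subtype]
  calc (univ.filter fun θ : K => evL κ θ x = 0).card ≤ p.roots.toFinset.card := by
        refine card_le_card fun θ hθ => ?_
        rw [Multiset.mem_toFinset, Polynomial.mem_roots hp, Polynomial.IsRoot.def, hev]
        exact (mem_filter.1 hθ).2
    _ ≤ Multiset.card p.roots := Multiset.toFinset_card_le _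
    _ ≤ p.natDegree := Polynomial.card_roots' _
    _ ≤ κ := hdeg

end hash

/-! ### padding -/

/-- pad a pair with zeros -/
def padL (a0 e' D : ℕ) : (Vc a0 × Vc e') →ₗ[ZMod 2] Vc D where
  toFun x := fun i => if h : (i : ℕ) < a0 then x.1 ⟨i, h⟩ else
    if h2 : (i : ℕ) - a0 < e' then x.2 ⟨i - a0, h2⟩ else 0
  map_add' x y := by
    funext i
    simp only [Prod.fst_add, Prod.snd_add, Pi.add_apply]
    split_ifs <;> simp
  map_smul' r x := by
    funext i
    simp only [Prod.smul_fst, Prod.smul_snd, Pi.smul_apply, RingHom.id_apply]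
    split_ifs <;> simp

theorem padL_injective {a0 e' D : ℕ} (h : a0 + e' ≤ D) : Function.Injective (padL a0 e' D) := by
  intro x y hxy
  have h1 : ∀ i : Fin D, padL a0 e' D x i = padL a0 e' D y i := fun i => by rw [hxy]
  refine Prod.ext ?_ ?_
  · funext i
    have h2 := h1 ⟨i, by omega⟩
    simpa [padL] using h2
  · funext i
    have h2 := h1 ⟨a0 + i, by omega⟩
    simpa [padL] using h2

theorem push_comp {X Y Z : Type} [Fintype X] [Fintype Y] [DecidableEq Y] [DecidableEq Z]
    (f : X → Y) (g : Y → Z) (μ : X → ZMod 2) : push (fun x => g (f x)) μ = push g (push f μ) := by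
  funext z
  unfold push
  rw [sum_filter, sum_filter]
  have h : ∀ y, (if g y = z then ∑ x with f x = y, μ x else 0) =
      ∑ x, if f x = y then (if g y = z then μ x else 0) else 0 := by
    intro y
    split_ifs with hy
    · rw [sum_filter]
    · simp
  rw [sum_congr rfl fun y _ => h y, sum_comm]
  refine sum_congr rfl fun x _ => ?_
  rw [sum_ite_eq]
  simp

theorem spec_core : SpecCORE := by
  intro κ a0 e' D Kc N q w d M e nu hnu hq he0 he he' hD hKc hd hPD hM hM1 hW
  classical
  have hf2 : Fact (Nat.Prime 2) := ⟨Nat.prime_two⟩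
  let K := GaloisField 2 e'
  have hKfin : Finite K := inferInstance
  let _ : Fintype K := Fintype.ofFinite K
  have he'0 : e' ≠ 0 := by omega
  have hKcard : Fintype.card K = 2 ^ e' := by
    rw [← Nat.card_eq_fintype_card]
    exact GaloisField.card 2 e' he'0
  have hKrank : Module.finrank (ZMod 2) K = e' := GaloisField.finrank 2 he'0
  let ψ : K ≃ₗ[ZMod 2] Vc e' := LinearEquiv.ofFinrankEq _ _ (by simp [hKrank])
  let eF : K ≃ Fin (2 ^ e') := Fintype.equivFinOfCardEq hKcard
  let a := a0 + e'
  -- the two kinds of retained maps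
  let r1 : Fin q → Vc κ →ₗ[ZMod 2] Vc a := fun z => (padL a0 e' a).comp ((nu z).prod 0)
  let r2 : K × Fin q → Vc κ →ₗ[ZMod 2] Vc a := fun p =>
    (padL a0 e' a).comp ((nu p.2).prod (ψ.toLinearMap.comp (evL κ p.1)))
  let R : Finset (Vc κ →ₗ[ZMod 2] Vc a) := univ.image r1 ∪ univ.image r2
  have hRcard : R.card ≤ q + 2 ^ e' * q := by
    refine (card_union_le _ _).trans (Nat.add_le_add ?_ ?_)
    · exact card_image_le.trans (by simp)
    · refine card_image_le.trans ?_
      simp [Fintype.card_prod, hKcard]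
  obtain ⟨T, hTcard, hT⟩ := hPD (Vc κ) (by simp) R
  have hTM : T.card ≤ M := hTcard.trans ((Nat.mul_le_mul_left N (by omega)).trans hM)
  -- make the set of tests non-empty
  obtain ⟨T', hTT', hT'T, hT'M, hT'ne⟩ : ∃ T' : Finset (Vc κ →ₗ[ZMod 2] Vc D),
      T ⊆ T' ∧ (∀ t ∈ T', t ∈ T ∨ t = 0) ∧ T'.card ≤ M ∧ T'.Nonempty := by
    by_cases h : T.Nonempty
    · exact ⟨T, Subset.refl _, fun t ht => Or.inl ht, hTM, h⟩
    · rw [not_nonempty_iff_eq_empty] at h
      exact ⟨{0}, by rw [h]; exact empty_subset _, fun t ht => Or.inr (mem_singleton.1 ht),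
        by simpa using hM1, singleton_nonempty _⟩
  have : Nonempty T' := hT'ne.to_subtype
  have : Nonempty (Fin q) := ⟨⟨0, hq⟩⟩
  let τ : T' → Vc κ →ₗ[ZMod 2] (Fin D → ZMod 2) := fun i => i.1
  let ν : Fin q → Vc κ →ₗ[ZMod 2] (Fin D → ZMod 2) := fun z =>
    (padL a 0 D).comp ((r1 z).prod 0)
  let P2 : K × Fin q → Vc κ →ₗ[ZMod 2] (Fin D → ZMod 2) := fun p =>
    (padL a 0 D).comp ((r2 p).prod 0)
  have hpadD : Function.Injective (padL a 0 D) := padL_injective (by simpa [a] using hD)
  have hpada : Function.Injective (padL a0 e' a) := padL_injective le_rfl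
  have hνe' : ∀ z x x', nu z x = nu z x' → ν z x = ν z x' := by
    intro z x x' h
    change padL a 0 D (padL a0 e' a (nu z x, 0), 0) = padL a 0 D (padL a0 e' a (nu z x', 0), 0)
    rw [h]
  have hG := H682.goodCode_of_exact (X := Vc κ) (D := D) (T := T') (Z := Fin q) (Θ := K)
    κ d (2 ^ w) (20 * M * d) (2 ^ w) (2 ^ e') e ((κ : ℝ) * (1 / 2) ^ e') (by simp)
    τ ν P2 (fun θ x => eF (evL κ θ x)) ?_ ?_ he ?_ le_rfl ?_ ?_
  · refine ⟨_, _, _, _, { hG with dim := hG.dim.trans ?_ }⟩
    refine Nat.mul_le_mul_right _ ?_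
    rw [Fintype.card_coe, Fintype.card_fin, hKcard]
    exact Nat.add_le_add_right hT'M _
  · -- pair views determine the hash value and the view
    intro θ z x x' h
    have h1 : ((r2 (θ, z)) x, (0 : Vc 0)) = ((r2 (θ, z)) x', (0 : Vc 0)) := hpadD h
    have h2 : (r2 (θ, z)) x = (r2 (θ, z)) x' := (Prod.ext_iff.1 h1).1
    have h3 : (nu z x, ψ (evL κ θ x)) = (nu z x', ψ (evL κ θ x')) := hpada h2
    have h4 := (Prod.ext_iff.1 h3).1
    have h5 := (Prod.ext_iff.1 h3).2
    exact ⟨by rw [ψ.injective h5], hνe' z x x' h4⟩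
  · -- losslessness
    intro U hU
    have h1 := hnu Unit Unit (U.image fun x => ((fun _ => x), ()))
      (card_image_le.trans hU)
    have h2 : (U.image fun x => (((fun _ => x) : Unit → Vc κ), ())).card = U.card := by
      refine card_image_of_injective _ fun x x' h => ?_
      exact congrFun (Prod.ext_iff.1 h).1 ()
    rw [h2] at h1
    refine h1.trans (sum_le_sum fun z _ => ?_)
    rw [image_image]
    have h3 : (U.image ((fun x : (Unit → Vc κ) × Unit => ((fun j => nu z (x.1 j)), x.2)) ∘
        fun x => ((fun _ => x), ()))).card ≤ (U.image fun x => ν z x).card := by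
      refine card_le_card_of_injOn (fun y => padL a 0 D (padL a0 e' a (y.1 (), 0), 0)) ?_ ?_
      · intro y hy
        rw [coe_image] at hy
        obtain ⟨x, hx, rfl⟩ := hy
        rw [coe_image]
        exact ⟨x, hx, rfl⟩
      · intro y _ y' _ h
        have h4 := (Prod.ext_iff.1 (hpadD h)).1
        have h5 := (Prod.ext_iff.1 (hpada h4)).1
        refine Prod.ext ?_ rfl
        funext j
        exact h5
    exact_mod_cast h3
  · -- collisions
    intro x x' hxx
    have h1 : Nat.card {θ : K // eF (evL κ θ x) = eF (evL κ θ x')} =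
        Nat.card {θ : K // evL κ θ (x - x') = 0} := by
      refine Nat.card_congr (Equiv.subtypeEquivRight fun θ => ?_)
      rw [eF.apply_eq_iff_eq, map_sub, sub_eq_zero]
    rw [h1, Nat.card_eq_fintype_card (α := K), hKcard]
    have h2 := card_evL_le (K := K) κ (x - x') (sub_ne_zero.2 hxx)
    have h3 : (κ : ℝ) * (1 / 2) ^ e' * ((2 ^ e' : ℕ) : ℝ) = κ := by
      push_cast
      rw [mul_assoc, ← mul_pow]
      norm_num
    rw [h3]
    exact_mod_cast h2
  · -- the bound for the number of tests
    rw [Fintype.card_coe, mul_assoc]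
    exact Nat.mul_le_mul_left 20 (Nat.mul_le_mul_right d hT'M)
  · -- exactness
    intro B hB
    have hWr : (Kc : ℝ) * 2 * ((20 * M * d : ℕ) : ℝ) ≤ ((2 ^ w : ℕ) : ℝ) := by
      have h1 : Kc * 2 * (20 * M * d) ≤ 2 ^ w := by
        calc Kc * 2 * (20 * M * d) = 2 * Kc * (20 * M * d) := by ring
          _ ≤ 2 ^ w := hW
      exact_mod_cast h1
    obtain ⟨U, hU1, hU2, hU3⟩ := hT (20 * M * d) hWr B (fun t ht => hB ⟨t, hTT' ht⟩)
    have hr1 : ∀ z, push (r1 z) U = push (r1 z) B := fun z =>
      hU3 _ (mem_union_left _ (mem_image_of_mem _ (mem_univ z)))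
    have hr2 : ∀ p, push (r2 p) U = push (r2 p) B := fun p =>
      hU3 _ (mem_union_right _ (mem_image_of_mem _ (mem_univ p)))
    refine ⟨U, ?_, ?_, ?_, ?_⟩
    · have h1 : (sz U : ℝ) ≤ ((2 ^ w : ℕ) : ℝ) := by
        refine hU1.trans (le_trans ?_ hWr)
        have h2 : (1 : ℝ) ≤ Kc := by exact_mod_cast (by omega : 1 ≤ Kc)
        have h3 : (0 : ℝ) ≤ 2 * ((20 * M * d : ℕ) : ℝ) := by positivity
        nlinarith
      exact_mod_cast h1
    · rintro ⟨t, ht⟩
      rcases hT'T t ht with h | h
      · exact hU2 t h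
      · have h1 : ∀ C : Vc κ → ZMod 2, push (fun x => t x) C =
            push (fun _ => (0 : Vc D)) (push (r1 ⟨0, hq⟩) C) := by
          intro C
          rw [← push_comp, h]
          rfl
        change push (fun x => t x) U = push (fun x => t x) B
        rw [h1, h1, hr1]
    · intro z
      have h1 : ∀ C : Vc κ → ZMod 2, push (ν z) C =
          push (fun y => padL a 0 D (y, 0)) (push (r1 z) C) := by
        intro C
        rw [← push_comp]
        rfl
      rw [h1, h1, hr1]
    · intro p
      have h1 : ∀ C : Vc κ → ZMod 2, push (P2 p) C =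
          push (fun y => padL a 0 D (y, 0)) (push (r2 p) C) := by
        intro C
        rw [← push_comp]
        rfl
      rw [h1, h1, hr2]

end Vale.Agent.P318.H269
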